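import Mathlib
import Vale.Agent.Lib.P064.Defs
import Vale.Agent.Lib.P064.DefsPc
import Vale.Agent.Lib.P064.Expectation
import Vale.Agent.Lib.P064.Sparse
import Vale.Agent.Lib.P064.Threshold
import Vale.Agent.Lib.P064.DigraphInd
import Vale.Agent.Lib.P064.LogSq

namespace Vale.Agent.Lib.P064

open Finset

universe u

/-- The fibre bound when every vertex of `H` has at most `Dg` neighbours. -/
theorem fiber_bound_deg {V W : Type*} [Fintype V] [DecidableEq V] [Fintype W] (H : SimpleGraph W)
    (n : ℕ) (hn : 2 ≤ n) (hW : Fintype.card W ≤ n) (q : ℝ) (hq0 : 0 < q) (hq1 : q ≤ 1)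
    (hyp : ∀ F : H.Subgraph,
      1 ≤ ((⊤ : SimpleGraph (Fin n)).copyCount F.coe : ℝ) * q ^ F.coe.edgeSet.ncard)
    (a b : ℕ) (hb : 1 ≤ b) (h3 : (1 / 3 : ℝ) ^ b ≤ (n : ℝ) ^ b * q ^ a)
    (O : Orientation H a b) (L : ℝ) (Dg : ℕ) (hD1 : 1 ≤ Dg)
    (hdeg : ∀ x : W, ∃ N : Finset W, N.card ≤ Dg ∧ ∀ y, H.Adj x y → y ∈ N)
    (hL1 : 30 * (Dg : ℝ) ≤ L)
    (A : V → V → Prop) (C : Finset V) (hC : C.Nonempty)
    (hclosed : ∀ u, u ∉ C → ∀ v ∈ C, ¬ A u v)
    (hreach : ∀ u ∈ C, ∀ B : Finset V, B ⊆ C → B.Nonempty → u ∉ B →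
      ∃ p ∈ C, p ∉ B ∧ ∃ v ∈ B, A p v)
    (X : Finset (V → W))
    (hinj : ∀ φ ∈ X, Function.Injective φ)
    (harc : ∀ φ ∈ X, ∀ u v, A u v → O.Arc (φ u) (φ v))
    (hrev : ∀ φ ∈ X, ∀ u v, A u v → O.Arc (φ v) (φ u) → A v u)
    (hagree : ∀ φ ∈ X, ∀ φ' ∈ X, ∀ v, v ∉ C → φ v = φ' v) :
    (X.card : ℝ) ≤ (3 * (n : ℝ)) ^ C.card * (L * q) ^ (inc (SimpleGraph.fromRel A) C).card := by
  classical
  set P := SimpleGraph.fromRel A with hP
  have hPadj : ∀ u v, P.Adj u v ↔ u ≠ v ∧ (A u v ∨ A v u) :=
    fun u v => SimpleGraph.fromRel_adj A u v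
  have hn1 : (1 : ℝ) ≤ n := by exact_mod_cast (by omega : 1 ≤ n)
  have hDg1 : (1 : ℝ) ≤ (Dg : ℝ) := by exact_mod_cast hD1
  have hL3 : (8 : ℝ) ≤ L := by linarith
  have hLq : 0 ≤ L * q := by
    have : (0 : ℝ) ≤ L := by linarith
    positivity
  rcases X.eq_empty_or_nonempty with rfl | hXne
  · simp only [Finset.card_empty, Nat.cast_zero]
    positivity
  obtain ⟨φ₁, hφ₁⟩ := hXne
  by_cases hiso : ∃ u ∈ C, ∀ v, ¬ P.Adj u v
  · obtain ⟨u, huC, hu⟩ := hiso
    have hCu : C = {u} := by
      by_contra hne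
      have hB : (C.erase u).Nonempty := by
        rw [Finset.nonempty_iff_ne_empty]
        intro h
        apply hne
        apply Finset.eq_singleton_iff_unique_mem.mpr
        refine ⟨huC, fun w hw => ?_⟩
        by_contra hwu
        have hmem : w ∈ C.erase u := Finset.mem_erase.mpr ⟨hwu, hw⟩
        rw [h] at hmem
        exact absurd hmem (Finset.notMem_empty _)
      obtain ⟨p, hpC, hpB, v, hvB, hpv⟩ := hreach u huC (C.erase u) (Finset.erase_subset _ _) hB
        (Finset.notMem_erase u C)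
      have hpu : p = u := by
        by_contra h
        exact hpB (Finset.mem_erase.mpr ⟨h, hpC⟩)
      have hvu : v ≠ u := (Finset.mem_erase.mp hvB).1
      rw [hpu] at hpv
      exact hu v ((hPadj u v).mpr ⟨fun h => hvu h.symm, Or.inl hpv⟩)
    have hinc : inc P C = ∅ := by
      apply Finset.eq_empty_of_forall_notMem
      intro e he
      induction e using Sym2.inductionOn with
      | hf x y =>
        rw [mk_mem_inc, hCu] at he
        rcases he.2 with h | h
        · rw [Finset.mem_singleton] at h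
          rw [h] at he
          exact hu y he.1
        · rw [Finset.mem_singleton] at h
          rw [h] at he
          exact hu x he.1.symm
    have hcard : X.card ≤ Fintype.card W := by
      rw [← Finset.card_univ]
      apply Finset.card_le_card_of_injOn (fun φ => φ u)
      · intro φ _
        exact Finset.mem_coe.mpr (Finset.mem_univ _)
      · intro φ hφ φ' hφ' h
        funext w
        by_cases hw : w = u
        · rw [hw]
          exact h
        · apply hagree φ (Finset.mem_coe.mp hφ) φ' (Finset.mem_coe.mp hφ') w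
          rw [hCu, Finset.mem_singleton]
          exact hw
    rw [hinc, hCu]
    simp only [Finset.card_singleton, pow_one, Finset.card_empty, pow_zero, mul_one]
    have h1 : (X.card : ℝ) ≤ n := by exact_mod_cast hcard.trans hW
    linarith
  · have hnb : ∀ u ∈ C, ∃ v, P.Adj u v := by
      intro u hu
      by_contra h
      exact hiso ⟨u, hu, fun v hv => h ⟨v, hv⟩⟩
    set Y : Finset V := Finset.univ.filter (fun v => v ∉ C ∧ ∃ u ∈ C, P.Adj u v) with hYdef
    have hY : ∀ v, v ∈ Y ↔ v ∉ C ∧ ∃ u ∈ C, P.Adj u v := by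
      intro v
      rw [hYdef, Finset.mem_filter]
      exact ⟨fun h => h.2, fun h => ⟨Finset.mem_univ _, h⟩⟩
    have hhomC : ∀ φ ∈ X, ∀ u v, P.Adj u v → u ∈ C → H.Adj (φ u) (φ v) := by
      intro φ hφ u v huv _
      rcases ((hPadj u v).mp huv).2 with h | h
      · exact O.adj _ _ (harc φ hφ u v h)
      · exact (O.adj _ _ (harc φ hφ v u h)).symm
    have claim : ∀ u v, P.Adj u v → (u ∈ C ∨ v ∈ C) → O.Arc (φ₁ u) (φ₁ v) → u ∈ C := by
      intro u v huv hc harc'
      by_contra huC
      have hvC : v ∈ C := hc.resolve_left huC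
      rcases ((hPadj u v).mp huv).2 with h | h
      · exact hclosed u huC v hvC h
      · exact hclosed u huC v hvC (hrev φ₁ hφ₁ v u h harc')
    have hcharge : b * (inc P C).card ≤ a * C.card := by
      have h := O.charge (C.image φ₁) ((inc P C).image (Sym2.map φ₁)) ?_ ?_
      · rw [Finset.card_image_of_injective _ (Sym2.map.injective (hinj φ₁ hφ₁)),
          Finset.card_image_of_injective _ (hinj φ₁ hφ₁)] at h
        exact h
      · intro e he
        obtain ⟨e', he', rfl⟩ := Finset.mem_image.mp he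
        induction e' using Sym2.inductionOn with
        | hf u v =>
          rw [mk_mem_inc] at he'
          rw [Sym2.map_mk, SimpleGraph.mem_edgeSet]
          rcases he'.2 with hc | hc
          · exact hhomC φ₁ hφ₁ u v he'.1 hc
          · exact (hhomC φ₁ hφ₁ v u he'.1.symm hc).symm
      · intro x y hxy harcxy
        obtain ⟨e', he', heq⟩ := Finset.mem_image.mp hxy
        induction e' using Sym2.inductionOn with
        | hf u v =>
          rw [mk_mem_inc] at he'
          rw [Sym2.map_mk, Sym2.eq_iff] at heq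
          rcases heq with ⟨hx, hy⟩ | ⟨hx, hy⟩
          · rw [← hx, ← hy] at harcxy
            rw [← hx]
            exact Finset.mem_image_of_mem _ (claim u v he'.1 he'.2 harcxy)
          · rw [← hx, ← hy] at harcxy
            rw [← hy]
            exact Finset.mem_image_of_mem _ (claim v u he'.1.symm he'.2.symm harcxy)
    have hlam := lambda_lower n q hq0 hq1 a b hb h3 C.card (inc P C).card hcharge
    obtain ⟨u₀, hu₀⟩ := hC
    have hins := inside_edges_bound A P
      (fun p v hpv hne => (hPadj p v).mpr ⟨hne, Or.inl hpv⟩) C u₀ hu₀ (hreach u₀ hu₀)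
    have hincge := ins_add_le_inc P C Y (fun v hv => (hY v).mp hv)
    have hm : Y.card + C.card ≤ (inc P C).card + 1 := by omega
    have hm1 : 1 ≤ (inc P C).card := by
      obtain ⟨v, hv⟩ := hnb u₀ hu₀
      exact Finset.card_pos.mpr ⟨s(u₀, v), (mk_mem_inc P C u₀ v).mpr ⟨hv, Or.inl hu₀⟩⟩
    have hc1 : 1 ≤ C.card := Finset.card_pos.mpr ⟨u₀, hu₀⟩
    have hout' : ∀ x : W, ∃ N : Finset W, N.card ≤ Dg ∧ ∀ y, O.Arc x y → y ∈ N := by
      intro x
      obtain ⟨N, hN, hNmem⟩ := hdeg x
      exact ⟨N, hN, fun y hy => hNmem y (O.adj x y hy)⟩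
    have hexplore : ∀ u ∈ C, ∀ x : W, (X.filter (fun φ => φ u = x)).card ≤ Dg ^ (C.card - 1) := by
      intro u hu x
      apply explore_bound A O.Arc Dg hout' C u hu (hreach u hu) _ x
      · intro φ hφ
        exact (Finset.mem_filter.mp hφ).2
      · intro φ hφ p v hpv
        exact harc φ (Finset.mem_filter.mp hφ).1 p v hpv
      · intro φ hφ φ' hφ' v hv
        exact hagree φ (Finset.mem_filter.mp hφ).1 φ' (Finset.mem_filter.mp hφ').1 v hv
    by_cases hYne : Y.Nonempty
    · obtain ⟨v₀, hv₀⟩ := hYne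
      obtain ⟨hv₀C, u₁, hu₁C, hadj⟩ := (hY v₀).mp hv₀
      obtain ⟨N, hN, hNmem⟩ := hdeg (φ₁ v₀)
      have hsub : X ⊆ N.biUnion (fun x => X.filter (fun φ => φ u₁ = x)) := by
        intro φ hφ
        rw [Finset.mem_biUnion]
        refine ⟨φ u₁, ?_, Finset.mem_filter.mpr ⟨hφ, rfl⟩⟩
        apply hNmem
        have h1 := hhomC φ hφ u₁ v₀ hadj hu₁C
        rw [hagree φ hφ φ₁ hφ₁ v₀ hv₀C] at h1
        exact h1.symm
      have hcard : X.card ≤ Dg ^ C.card := by
        calc X.card ≤ (N.biUnion (fun x => X.filter (fun φ => φ u₁ = x))).card :=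
              Finset.card_le_card hsub
          _ ≤ ∑ x ∈ N, (X.filter (fun φ => φ u₁ = x)).card := Finset.card_biUnion_le
          _ ≤ ∑ _x ∈ N, Dg ^ (C.card - 1) :=
              Finset.sum_le_sum (fun x _ => hexplore u₁ hu₁C x)
          _ = N.card * Dg ^ (C.card - 1) := by rw [Finset.sum_const, smul_eq_mul]
          _ ≤ Dg * Dg ^ (C.card - 1) := Nat.mul_le_mul_right _ hN
          _ = Dg ^ C.card := by
              rw [← pow_succ']
              congr 1
              omega
      have hYc : 1 ≤ Y.card := Finset.card_pos.mpr ⟨v₀, hv₀⟩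
      have hmc : C.card ≤ (inc P C).card := by omega
      have hL1' : (1 : ℝ) ≤ L := by linarith
      have hDL : (Dg : ℝ) ≤ L := by linarith
      have h3c : (1 : ℝ) ≤ 3 ^ C.card * ((n : ℝ) ^ C.card * q ^ (inc P C).card) := by
        have h0 : (3 : ℝ) ^ C.card * (1 / 3) ^ C.card = 1 := by
          rw [← mul_pow]
          norm_num
        calc (1 : ℝ) = 3 ^ C.card * (1 / 3) ^ C.card := h0.symm
          _ ≤ 3 ^ C.card * ((n : ℝ) ^ C.card * q ^ (inc P C).card) :=
              mul_le_mul_of_nonneg_left hlam (by positivity)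
      calc (X.card : ℝ) ≤ (Dg : ℝ) ^ C.card := by exact_mod_cast hcard
        _ ≤ L ^ C.card := pow_le_pow_left₀ (Nat.cast_nonneg Dg) hDL _
        _ ≤ L ^ (inc P C).card := pow_le_pow_right₀ hL1' hmc
        _ = 1 * L ^ (inc P C).card := (one_mul _).symm
        _ ≤ (3 ^ C.card * ((n : ℝ) ^ C.card * q ^ (inc P C).card)) * L ^ (inc P C).card :=
            mul_le_mul_of_nonneg_right h3c (by positivity)
        _ = (3 * (n : ℝ)) ^ C.card * (L * q) ^ (inc P C).card := by
            rw [mul_pow, mul_pow]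
            ring
    · have hY0 : Y.card = 0 := by
        rw [Finset.card_eq_zero]
        exact Finset.not_nonempty_iff_eq_empty.mp hYne
      let good : Finset (V → W) → Prop :=
        fun D => ∀ φ ∈ D, ∀ φ' ∈ D, φ ≠ φ' → ∀ u ∈ C, ∀ u' ∈ C, φ u ≠ φ' u'
      have hgood0 : good ∅ := by
        intro φ hφ
        exact absurd hφ (Finset.notMem_empty _)
      obtain ⟨D, hDmem, hDmax⟩ := Finset.exists_max_image (X.powerset.filter good) Finset.card
        ⟨∅, Finset.mem_filter.mpr ⟨Finset.mem_powerset.mpr (Finset.empty_subset _), hgood0⟩⟩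
      have hDX : D ⊆ X := Finset.mem_powerset.mp (Finset.mem_filter.mp hDmem).1
      have hDgood : good D := (Finset.mem_filter.mp hDmem).2
      have hconf : ∀ φ ∈ X, ∃ φ' ∈ D, ∃ u ∈ C, ∃ u' ∈ C, φ u = φ' u' := by
        intro φ hφ
        by_cases hφD : φ ∈ D
        · exact ⟨φ, hφD, u₀, hu₀, u₀, hu₀, rfl⟩
        · by_contra hcon
          have hcon' : ∀ φ' ∈ D, ∀ u ∈ C, ∀ u' ∈ C, φ u ≠ φ' u' := by
            intro φ' hφ' u hu u' hu' h
            exact hcon ⟨φ', hφ', u, hu, u', hu', h⟩
          have hgood' : good (insert φ D) := by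
            intro ψ hψ ψ' hψ' hne u hu u' hu'
            rcases Finset.mem_insert.mp hψ with rfl | hψD
            · rcases Finset.mem_insert.mp hψ' with rfl | hψ'D
              · exact absurd rfl hne
              · exact hcon' ψ' hψ'D u hu u' hu'
            · rcases Finset.mem_insert.mp hψ' with rfl | hψ'D
              · exact fun h => hcon' ψ hψD u' hu' u hu h.symm
              · exact hDgood ψ hψD ψ' hψ'D hne u hu u' hu'
          have hmem' : insert φ D ∈ X.powerset.filter good :=
            Finset.mem_filter.mpr ⟨Finset.mem_powerset.mpr (Finset.insert_subset hφ hDX), hgood'⟩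
          have h1 := hDmax _ hmem'
          rw [Finset.card_insert_of_notMem hφD] at h1
          omega
      have hsun := sunflower_count H n (by omega) q hq0.le hyp P C Y ⟨u₀, hu₀⟩ hY hnb D
        (fun φ hφ => hinj φ (hDX hφ)) (fun φ hφ => hhomC φ (hDX hφ))
        (fun φ hφ φ' hφ' => hagree φ (hDX hφ) φ' (hDX hφ')) hDgood
      have hnum := sunflower_numeric n Y.card C.card D.card (inc P C).card (by omega) q hq0.le hsun
      have hexp : X.card ≤ D.card * C.card ^ 2 * Dg ^ (C.card - 1) := by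
        have hsub : X ⊆ (D ×ˢ (C ×ˢ C)).biUnion
            (fun z => X.filter (fun φ => φ z.2.2 = z.1 z.2.1)) := by
          intro φ hφ
          obtain ⟨φ', hφ', u, hu, u', hu', h⟩ := hconf φ hφ
          rw [Finset.mem_biUnion]
          exact ⟨(φ', (u', u)), Finset.mem_product.mpr ⟨hφ', Finset.mem_product.mpr ⟨hu', hu⟩⟩,
            Finset.mem_filter.mpr ⟨hφ, h⟩⟩
        calc X.card ≤ ((D ×ˢ (C ×ˢ C)).biUnion
              (fun z => X.filter (fun φ => φ z.2.2 = z.1 z.2.1))).card := Finset.card_le_card hsub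
          _ ≤ ∑ z ∈ D ×ˢ (C ×ˢ C), (X.filter (fun φ => φ z.2.2 = z.1 z.2.1)).card :=
              Finset.card_biUnion_le
          _ ≤ ∑ _z ∈ D ×ˢ (C ×ˢ C), Dg ^ (C.card - 1) := by
              apply Finset.sum_le_sum
              intro z hz
              obtain ⟨hz1, hz2⟩ := Finset.mem_product.mp hz
              obtain ⟨hz21, hz22⟩ := Finset.mem_product.mp hz2
              exact hexplore z.2.2 hz22 (z.1 z.2.1)
          _ = D.card * C.card ^ 2 * Dg ^ (C.card - 1) := by
              rw [Finset.sum_const, smul_eq_mul, Finset.card_product, Finset.card_product]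
              ring
      have hnum' : (D.card : ℝ) ≤ 7.5 * ((n : ℝ) ^ C.card * q ^ (inc P C).card)
          ∨ (D.card : ℝ) ≤ (Y.card : ℝ) * 0 := by
        rcases hnum with h | h
        · exact Or.inl h
        · right
          rw [hY0] at h
          rw [hY0]
          simpa using h
      have hfinal := fiber_numeric D.card C.card Y.card (inc P C).card Dg
        ((n : ℝ) ^ C.card * q ^ (inc P C).card) L 0 hnum' hlam hm hm1 hc1 hL1 (by linarith) hL3
        (le_refl 0)
      calc (X.card : ℝ) ≤ ((D.card * C.card ^ 2 * Dg ^ (C.card - 1) : ℕ) : ℝ) := by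
            exact_mod_cast hexp
        _ = (D.card : ℝ) * (C.card : ℝ) ^ 2 * (Dg : ℝ) ^ (C.card - 1) := by
            push_cast
            ring
        _ ≤ 3 ^ C.card * ((n : ℝ) ^ C.card * q ^ (inc P C).card) * L ^ (inc P C).card := hfinal
        _ = (3 * (n : ℝ)) ^ C.card * (L * q) ^ (inc P C).card := by
            rw [mul_pow, mul_pow]
            ring

/-- The counting bound for oriented patterns. -/
theorem digraph_bound_deg {W : Type*} [Fintype W] (H : SimpleGraph W) (n : ℕ) (hn : 2 ≤ n)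
    (hW : Fintype.card W ≤ n) (q : ℝ) (hq0 : 0 < q) (hq1 : q ≤ 1)
    (hyp : ∀ F : H.Subgraph,
      1 ≤ ((⊤ : SimpleGraph (Fin n)).copyCount F.coe : ℝ) * q ^ F.coe.edgeSet.ncard)
    (a b : ℕ) (hb : 1 ≤ b) (h3 : (1 / 3 : ℝ) ^ b ≤ (n : ℝ) ^ b * q ^ a)
    (O : Orientation H a b) (L : ℝ) (Dg : ℕ) (hD1 : 1 ≤ Dg)
    (hdeg : ∀ x : W, ∃ N : Finset W, N.card ≤ Dg ∧ ∀ y, H.Adj x y → y ∈ N)
    (hL1 : 30 * (Dg : ℝ) ≤ L) :
    ∀ (k : ℕ) (V : Type u) [Fintype V] (A : V → V → Prop), Fintype.card V = k →
      ((PhiSet O.Arc A).card : ℝ)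
        ≤ (3 * (n : ℝ)) ^ k * (L * q) ^ (SimpleGraph.fromRel A).edgeSet.ncard := by
  have hLq : 0 ≤ L * q := by
    have hDg0 : (0 : ℝ) ≤ (Dg : ℝ) := Nat.cast_nonneg Dg
    have : (0 : ℝ) ≤ L := by linarith
    positivity
  intro k
  induction k using Nat.strong_induction_on with
  | _ k ih =>
    intro V _ A hcard
    classical
    rcases isEmpty_or_nonempty V with hV | hV
    · have hk : k = 0 := by
        rw [← hcard]
        exact Fintype.card_eq_zero
      have he : (SimpleGraph.fromRel A).edgeSet.ncard = 0 := by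
        rw [Set.ncard_eq_zero]
        ext e
        induction e using Sym2.inductionOn with
        | hf a b => exact isEmptyElim a
      have hle : (PhiSet O.Arc A).card ≤ 1 := Finset.card_le_one_of_subsingleton _
      rw [hk, he]
      simp only [pow_zero, mul_one]
      exact_mod_cast hle
    · let closed : Finset V → Prop := fun C => C.Nonempty ∧ ∀ u, u ∉ C → ∀ v ∈ C, ¬ A u v
      have hclosed_univ : closed Finset.univ :=
        ⟨Finset.univ_nonempty, fun u hu => absurd (Finset.mem_univ u) hu⟩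
      obtain ⟨C, hCmem, hCmin⟩ := Finset.exists_min_image (Finset.univ.filter closed) Finset.card
        ⟨Finset.univ, Finset.mem_filter.mpr ⟨Finset.mem_univ _, hclosed_univ⟩⟩
      have hCc : closed C := (Finset.mem_filter.mp hCmem).2
      obtain ⟨hCne, hclosed⟩ := hCc
      have hreach : ∀ u ∈ C, ∀ B : Finset V, B ⊆ C → B.Nonempty → u ∉ B →
          ∃ p ∈ C, p ∉ B ∧ ∃ v ∈ B, A p v := by
        intro u hu B hBC hBne huB
        by_contra hcon
        have hBclosed : closed B := by
          refine ⟨hBne, ?_⟩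
          intro p hpB v hvB hpv
          by_cases hpC : p ∈ C
          · exact hcon ⟨p, hpC, hpB, v, hvB, hpv⟩
          · exact hclosed p hpC v (hBC hvB) hpv
        have h1 := hCmin B (Finset.mem_filter.mpr ⟨Finset.mem_univ _, hBclosed⟩)
        have h2 : B.card < C.card :=
          Finset.card_lt_card ((Finset.ssubset_iff_of_subset hBC).mpr ⟨u, hu, huB⟩)
        omega
      have hCpos : 0 < C.card := Finset.card_pos.mpr hCne
      have hCk : C.card ≤ k := by
        rw [← hcard]
        exact Finset.card_le_univ C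
      have hcard' : Fintype.card {v : V // v ∉ C} = k - C.card := by
        rw [Fintype.card_of_subtype Cᶜ (fun x => Finset.mem_compl), Finset.card_compl, hcard]
      have ih' := ih (k - C.card) (by omega) {v : V // v ∉ C}
        (fun x y : {v : V // v ∉ C} => A x.1 y.1) hcard'
      have hsplit := fromRel_edge_split A C
      have hmaps : ∀ φ ∈ PhiSet O.Arc A, (fun x : {v : V // v ∉ C} => φ x.1)
          ∈ PhiSet O.Arc (fun x y : {v : V // v ∉ C} => A x.1 y.1) := by
        intro φ hφ
        rw [mem_PhiSet] at hφ ⊢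
        obtain ⟨h1, h2, h3'⟩ := hφ
        refine ⟨?_, ?_, ?_⟩
        · intro x y hxy
          exact Subtype.ext (h1 hxy)
        · intro x y hxy
          exact h2 x.1 y.1 hxy
        · intro x y hxy harc
          exact h3' x.1 y.1 hxy harc
      have hfib : ∀ ψ ∈ PhiSet O.Arc (fun x y : {v : V // v ∉ C} => A x.1 y.1),
          ((((PhiSet O.Arc A).filter
            (fun φ => (fun x : {v : V // v ∉ C} => φ x.1) = ψ)).card : ℕ) : ℝ)
            ≤ (3 * (n : ℝ)) ^ C.card * (L * q) ^ (inc (SimpleGraph.fromRel A) C).card := by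
        intro ψ _
        apply fiber_bound_deg H n hn hW q hq0 hq1 hyp a b hb h3 O L Dg hD1 hdeg hL1 A C hCne hclosed
          hreach
        · intro φ hφ
          exact ((mem_PhiSet O.Arc A φ).mp (Finset.mem_filter.mp hφ).1).1
        · intro φ hφ
          exact ((mem_PhiSet O.Arc A φ).mp (Finset.mem_filter.mp hφ).1).2.1
        · intro φ hφ
          exact ((mem_PhiSet O.Arc A φ).mp (Finset.mem_filter.mp hφ).1).2.2
        · intro φ hφ φ' hφ' v hv
          have h1 := (Finset.mem_filter.mp hφ).2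
          have h2 := (Finset.mem_filter.mp hφ').2
          exact congrFun (h1.trans h2.symm) ⟨v, hv⟩
      have hkC : k = (k - C.card) + C.card := by omega
      calc ((PhiSet O.Arc A).card : ℝ)
          = ∑ ψ ∈ PhiSet O.Arc (fun x y : {v : V // v ∉ C} => A x.1 y.1),
              ((((PhiSet O.Arc A).filter
                (fun φ => (fun x : {v : V // v ∉ C} => φ x.1) = ψ)).card : ℕ) : ℝ) := by
            rw [Finset.card_eq_sum_card_fiberwise hmaps]
            push_cast
            rfl
        _ ≤ ∑ _ψ ∈ PhiSet O.Arc (fun x y : {v : V // v ∉ C} => A x.1 y.1),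
              (3 * (n : ℝ)) ^ C.card * (L * q) ^ (inc (SimpleGraph.fromRel A) C).card :=
            Finset.sum_le_sum hfib
        _ = ((PhiSet O.Arc (fun x y : {v : V // v ∉ C} => A x.1 y.1)).card : ℝ)
              * ((3 * (n : ℝ)) ^ C.card * (L * q) ^ (inc (SimpleGraph.fromRel A) C).card) := by
            rw [Finset.sum_const, nsmul_eq_mul]
        _ ≤ ((3 * (n : ℝ)) ^ (k - C.card) * (L * q)
              ^ (SimpleGraph.fromRel (fun x y : {v : V // v ∉ C} => A x.1 y.1)).edgeSet.ncard)
              * ((3 * (n : ℝ)) ^ C.card * (L * q) ^ (inc (SimpleGraph.fromRel A) C).card) :=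
            mul_le_mul_of_nonneg_right ih' (by positivity)
        _ = (3 * (n : ℝ)) ^ k * (L * q) ^ (SimpleGraph.fromRel A).edgeSet.ncard := by
            have hpk : (3 * (n : ℝ)) ^ k
                = (3 * (n : ℝ)) ^ (k - C.card) * (3 * (n : ℝ)) ^ C.card := by
              rw [← pow_add, ← hkC]
            rw [hsplit, pow_add, hpk]
            ring


/-- Summing the oriented-pattern bound over all orientation codes. -/
theorem inj_le_codes_deg {W : Type*} [Fintype W] (H : SimpleGraph W) (n : ℕ) (hn : 2 ≤ n)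
    (hW : Fintype.card W ≤ n) (q : ℝ) (hq0 : 0 < q) (hq1 : q ≤ 1)
    (hyp : ∀ F : H.Subgraph,
      1 ≤ ((⊤ : SimpleGraph (Fin n)).copyCount F.coe : ℝ) * q ^ F.coe.edgeSet.ncard)
    (a b : ℕ) (hb : 1 ≤ b) (h3 : (1 / 3 : ℝ) ^ b ≤ (n : ℝ) ^ b * q ^ a)
    (O : Orientation H a b) (L : ℝ) (Dg : ℕ) (hD1 : 1 ≤ Dg)
    (hdeg : ∀ x : W, ∃ N : Finset W, N.card ≤ Dg ∧ ∀ y, H.Adj x y → y ∈ N)
    (hL1 : 30 * (Dg : ℝ) ≤ L) {U : Type u} [Fintype U] (F : SimpleGraph U) :
    ((injFin F H).card : ℝ)
      ≤ 4 ^ F.edgeSet.ncard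
        * ((3 * (n : ℝ)) ^ Fintype.card U * (L * q) ^ F.edgeSet.ncard) := by
  classical
  have hLq : 0 ≤ L * q := by
    have hDg0 : (0 : ℝ) ≤ (Dg : ℝ) := Nat.cast_nonneg Dg
    have : (0 : ℝ) ≤ L := by linarith
    positivity
  set e := F.edgeSet.ncard with he
  set Dp : Finset (U × U) := Finset.univ.filter (fun p => F.Adj p.1 p.2) with hDp
  have hDcard : Dp.card ≤ 2 * e := card_adjPairs_le F Dp (fun p hp => (Finset.mem_filter.mp hp).2)
  let code : (U → W) → Finset (U × U) :=
    fun φ => Finset.univ.filter (fun p => F.Adj p.1 p.2 ∧ O.Arc (φ p.1) (φ p.2))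
  have hcode : ∀ (φ : U → W) (u v : U), (u, v) ∈ code φ ↔ F.Adj u v ∧ O.Arc (φ u) (φ v) := by
    intro φ u v
    show (u, v) ∈ Finset.univ.filter (fun p : U × U => F.Adj p.1 p.2 ∧ O.Arc (φ p.1) (φ p.2)) ↔ _
    rw [Finset.mem_filter]
    exact ⟨fun h => h.2, fun h => ⟨Finset.mem_univ _, h⟩⟩
  have hcode_mem : ∀ φ ∈ injFin F H, code φ ∈ Dp.powerset := by
    intro φ _
    rw [Finset.mem_powerset]
    intro p hp
    exact Finset.mem_filter.mpr ⟨Finset.mem_univ _, (Finset.mem_filter.mp hp).2.1⟩
  have hfib : ∀ S ∈ Dp.powerset,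
      ((((injFin F H).filter (fun φ => code φ = S)).card : ℕ) : ℝ)
        ≤ (3 * (n : ℝ)) ^ Fintype.card U * (L * q) ^ e := by
    intro S _
    rcases ((injFin F H).filter (fun φ => code φ = S)).eq_empty_or_nonempty with h0 | ⟨φ₀, hφ₀⟩
    · rw [h0]
      simp only [Finset.card_empty, Nat.cast_zero]
      positivity
    · let A : U → U → Prop := fun u v => (u, v) ∈ S
      have hA : ∀ φ, code φ = S → ∀ u v, A u v ↔ F.Adj u v ∧ O.Arc (φ u) (φ v) := by
        intro φ hφ u v
        show (u, v) ∈ S ↔ _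
        rw [← hφ]
        exact hcode φ u v
      obtain ⟨hφ₀inj, hφ₀code⟩ := Finset.mem_filter.mp hφ₀
      rw [mem_injFin] at hφ₀inj
      have hrel : SimpleGraph.fromRel A = F := by
        ext u v
        rw [SimpleGraph.fromRel_adj, hA φ₀ hφ₀code, hA φ₀ hφ₀code]
        constructor
        · rintro ⟨-, h | h⟩
          · exact h.1
          · exact h.1.symm
        · intro huv
          refine ⟨F.ne_of_adj huv, ?_⟩
          rcases O.total _ _ (hφ₀inj.2 u v huv) with h | h
          · exact Or.inl ⟨huv, h⟩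
          · exact Or.inr ⟨huv.symm, h⟩
      have hsub : (injFin F H).filter (fun φ => code φ = S) ⊆ PhiSet O.Arc A := by
        intro φ hφ
        obtain ⟨hφinj, hφcode⟩ := Finset.mem_filter.mp hφ
        rw [mem_injFin] at hφinj
        rw [mem_PhiSet]
        refine ⟨hφinj.1, ?_, ?_⟩
        · intro u v huv
          exact ((hA φ hφcode u v).mp huv).2
        · intro u v huv harc
          exact (hA φ hφcode v u).mpr ⟨((hA φ hφcode u v).mp huv).1.symm, harc⟩
      have hdb := digraph_bound_deg H n hn hW q hq0 hq1 hyp a b hb h3 O L Dg hD1 hdeg hL1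
        (Fintype.card U) U A rfl
      rw [hrel] at hdb
      calc ((((injFin F H).filter (fun φ => code φ = S)).card : ℕ) : ℝ)
          ≤ ((PhiSet O.Arc A).card : ℝ) := by exact_mod_cast Finset.card_le_card hsub
        _ ≤ _ := hdb
  calc ((injFin F H).card : ℝ)
      = ∑ S ∈ Dp.powerset, ((((injFin F H).filter (fun φ => code φ = S)).card : ℕ) : ℝ) := by
        rw [Finset.card_eq_sum_card_fiberwise hcode_mem]
        push_cast
        rfl
    _ ≤ ∑ _S ∈ Dp.powerset, (3 * (n : ℝ)) ^ Fintype.card U * (L * q) ^ e :=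
        Finset.sum_le_sum hfib
    _ = (Dp.powerset.card : ℝ) * ((3 * (n : ℝ)) ^ Fintype.card U * (L * q) ^ e) := by
        rw [Finset.sum_const, nsmul_eq_mul]
    _ ≤ 4 ^ e * ((3 * (n : ℝ)) ^ Fintype.card U * (L * q) ^ e) := by
        apply mul_le_mul_of_nonneg_right _ (by positivity)
        rw [Finset.card_powerset]
        push_cast
        calc (2 : ℝ) ^ Dp.card ≤ 2 ^ (2 * e) := pow_le_pow_right₀ (by norm_num) hDcard
          _ = 4 ^ e := by
              rw [pow_mul]
              norm_num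

theorem deg_inj_bound {W : Type*} [Fintype W] (H : SimpleGraph W) (n : ℕ) (hn : 2 ≤ n)
    (hW : Fintype.card W ≤ n) (q : ℝ) (hq0 : 0 < q) (hq1 : q ≤ 1)
    (hyp : ∀ F : H.Subgraph,
      1 ≤ ((⊤ : SimpleGraph (Fin n)).copyCount F.coe : ℝ) * q ^ F.coe.edgeSet.ncard)
    (a b : ℕ) (hb : 1 ≤ b) (h3 : (1 / 3 : ℝ) ^ b ≤ (n : ℝ) ^ b * q ^ a)
    (O : Orientation H a b) (L : ℝ) (Dg : ℕ) (hD1 : 1 ≤ Dg)
    (hdeg : ∀ x : W, ∃ N : Finset W, N.card ≤ Dg ∧ ∀ y, H.Adj x y → y ∈ N)
    (hL1 : 30 * (Dg : ℝ) ≤ L) :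
    ∀ (m : ℕ) (U : Type u) [Fintype U] (F : SimpleGraph U), Fintype.card U = m →
      ((injFin F H).card : ℝ)
        ≤ (n.descFactorial m : ℝ) * (324 * L * q) ^ F.edgeSet.ncard := by
  have hDg0 : (0 : ℝ) ≤ (Dg : ℝ) := Nat.cast_nonneg Dg
  have hL0 : (0 : ℝ) ≤ L := by linarith
  have hB0 : (0 : ℝ) ≤ 324 * L * q := by positivity
  intro m
  induction m with
  | zero =>
    intro U _ F hcard
    have hU : IsEmpty U := Fintype.card_eq_zero_iff.mp hcard
    have he : F.edgeSet.ncard = 0 := by
      rw [Set.ncard_eq_zero]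
      ext e
      induction e using Sym2.inductionOn with
      | hf a b => exact isEmptyElim a
    have hle : (injFin F H).card ≤ 1 := Finset.card_le_one_of_subsingleton _
    rw [he]
    simp only [Nat.descFactorial_zero, Nat.cast_one, pow_zero, mul_one]
    exact_mod_cast hle
  | succ m ih =>
    intro U _ F hcard
    classical
    by_cases hiso : ∃ u, ∀ v, ¬ F.Adj u v
    · obtain ⟨u, hu⟩ := hiso
      have hcardc : Fintype.card ↥({u}ᶜ : Set U) = m := by
        have h1 : Fintype.card ↥({u} : Set U) + Fintype.card ↥({u}ᶜ : Set U) = Fintype.card U := by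
          rw [← Fintype.card_sum]
          exact Fintype.card_congr (Equiv.Set.sumCompl ({u} : Set U))
        have h2 : Fintype.card ↥({u} : Set U) = 1 := by simp
        omega
      have hcross : ∀ a b, F.Adj a b → (a ∈ ({u} : Set U) ↔ b ∈ ({u} : Set U)) := by
        intro a b hab
        constructor
        · intro ha
          rw [Set.mem_singleton_iff] at ha
          rw [ha] at hab
          exact absurd hab (hu b)
        · intro hb
          rw [Set.mem_singleton_iff] at hb
          rw [hb] at hab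
          exact absurd hab.symm (hu a)
      have he := edge_split F ({u} : Set U) hcross
      have he0 : (F.induce ({u} : Set U)).edgeSet.ncard = 0 := by
        rw [Set.ncard_eq_zero]
        ext e
        induction e using Sym2.inductionOn with
        | hf a b =>
          simp only [SimpleGraph.mem_edgeSet, Set.mem_empty_iff_false, iff_false]
          intro hab
          have hab' : F.Adj a b := hab
          have ha : (a : U) = u := a.2
          rw [ha] at hab'
          exact hu b hab'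
      rw [he0, zero_add] at he
      have h1 := card_injFin_remove F H u
      rw [hcard] at h1
      have h2 := ih ↥({u}ᶜ : Set U) (F.induce ({u}ᶜ : Set U)) hcardc
      rw [← he] at h2
      have h3' : Fintype.card W - (m + 1 - 1) ≤ n - m := by omega
      rw [Nat.descFactorial_succ]
      calc ((injFin F H).card : ℝ)
          ≤ ((Fintype.card W - (m + 1 - 1) : ℕ) : ℝ)
            * ((injFin (F.induce ({u}ᶜ : Set U)) H).card : ℝ) := by exact_mod_cast h1
        _ ≤ ((n - m : ℕ) : ℝ) * ((n.descFactorial m : ℝ)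
            * (324 * L * q) ^ F.edgeSet.ncard) := by
            apply mul_le_mul _ h2 (Nat.cast_nonneg _) (Nat.cast_nonneg _)
            exact_mod_cast h3'
        _ = (((n - m) * n.descFactorial m : ℕ) : ℝ)
            * (324 * L * q) ^ F.edgeSet.ncard := by
            push_cast
            ring
    · have hniso : ∀ a, ∃ b, F.Adj a b := by
        intro a
        by_contra hcon
        exact hiso ⟨a, fun v hv => hcon ⟨v, hv⟩⟩
      by_cases hkW : m + 1 ≤ Fintype.card W
      · have hkn : m + 1 ≤ n := hkW.trans hW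
        have h1 := inj_le_codes_deg H n hn hW q hq0 hq1 hyp a b hb h3 O L Dg hD1 hdeg hL1 F
        rw [hcard] at h1
        have h2 := pow_le_descFactorial n (m + 1) hkn
        have h3' : m + 1 ≤ 2 * F.edgeSet.ncard := by
          rw [← hcard]
          exact card_le_two_mul_edges F hniso
        set e := F.edgeSet.ncard with hedef
        have hD0 : (0 : ℝ) ≤ (n.descFactorial (m + 1) : ℝ) := Nat.cast_nonneg _
        have hn0 : (0 : ℝ) ≤ n := Nat.cast_nonneg n
        have h4 : (3 * (n : ℝ)) ^ (m + 1) ≤ (n.descFactorial (m + 1) : ℝ) * 81 ^ e := by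
          calc (3 * (n : ℝ)) ^ (m + 1) = 3 ^ (m + 1) * (n : ℝ) ^ (m + 1) := mul_pow _ _ _
            _ ≤ 3 ^ (m + 1) * (3 ^ (m + 1) * (n.descFactorial (m + 1) : ℝ)) :=
                mul_le_mul_of_nonneg_left h2 (by positivity)
            _ = (n.descFactorial (m + 1) : ℝ) * 9 ^ (m + 1) := by
                have h9 : (9 : ℝ) ^ (m + 1) = 3 ^ (m + 1) * 3 ^ (m + 1) := by
                  rw [← mul_pow]
                  norm_num
                rw [h9]
                ring
            _ ≤ (n.descFactorial (m + 1) : ℝ) * 9 ^ (2 * e) := by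
                apply mul_le_mul_of_nonneg_left _ hD0
                exact pow_le_pow_right₀ (by norm_num) h3'
            _ = (n.descFactorial (m + 1) : ℝ) * 81 ^ e := by
                rw [pow_mul]
                norm_num
        have hLq : (0 : ℝ) ≤ (L * q) ^ e := by positivity
        calc ((injFin F H).card : ℝ)
            ≤ 4 ^ e * ((3 * (n : ℝ)) ^ (m + 1) * (L * q) ^ e) := h1
          _ ≤ 4 ^ e * (((n.descFactorial (m + 1) : ℝ) * 81 ^ e) * (L * q) ^ e) := by
              apply mul_le_mul_of_nonneg_left _ (by positivity)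
              exact mul_le_mul_of_nonneg_right h4 hLq
          _ = (n.descFactorial (m + 1) : ℝ) * (324 * L * q) ^ e := by
              have h324 : (324 * L * q) ^ e = 4 ^ e * 81 ^ e * (L * q) ^ e := by
                rw [← mul_pow, ← mul_pow]
                congr 1
                ring
              rw [h324]
              ring
      · have h0 : (injFin F H).card = 0 := by
          rw [Finset.card_eq_zero]
          apply Finset.eq_empty_of_forall_notMem
          intro φ hφ
          rw [mem_injFin] at hφ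
          have := Fintype.card_le_of_injective φ hφ.1
          omega
        rw [h0]
        simp only [Nat.cast_zero]
        positivity

theorem deg_copy_bound {W : Type*} [Fintype W] (H : SimpleGraph W) (n : ℕ) (hn : 2 ≤ n)
    (hW : Fintype.card W ≤ n) (q : ℝ) (hq0 : 0 < q) (hq1 : q ≤ 1)
    (hyp : ∀ F : H.Subgraph,
      1 ≤ ((⊤ : SimpleGraph (Fin n)).copyCount F.coe : ℝ) * q ^ F.coe.edgeSet.ncard)
    (a b : ℕ) (hb : 1 ≤ b) (h3 : (1 / 3 : ℝ) ^ b ≤ (n : ℝ) ^ b * q ^ a)
    (O : Orientation H a b) (L : ℝ) (Dg : ℕ) (hD1 : 1 ≤ Dg)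
    (hdeg : ∀ x : W, ∃ N : Finset W, N.card ≤ Dg ∧ ∀ y, H.Adj x y → y ∈ N)
    (hL1 : 30 * (Dg : ℝ) ≤ L) {U : Type u} [Fintype U] (F : SimpleGraph U) :
    (H.copyCount F : ℝ) ≤ ((⊤ : SimpleGraph (Fin n)).copyCount F : ℝ)
      * (324 * L * q) ^ F.edgeSet.ncard := by
  have h1 := deg_inj_bound H n hn hW q hq0 hq1 hyp a b hb h3 O L Dg hD1 hdeg hL1
    (Fintype.card U) U F rfl
  rw [card_injFin_eq F H, ← card_injFin_top F n, card_injFin_eq F (⊤ : SimpleGraph (Fin n))] at h1
  have ha : (0 : ℝ) < (Nat.card (F ≃g F) : ℝ) := by exact_mod_cast aut_pos F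
  push_cast at h1
  have h2 : (H.copyCount F : ℝ) * (Nat.card (F ≃g F) : ℝ)
      ≤ (((⊤ : SimpleGraph (Fin n)).copyCount F : ℝ)
        * (324 * L * q) ^ F.edgeSet.ncard) * (Nat.card (F ≃g F) : ℝ) := by
    calc (H.copyCount F : ℝ) * (Nat.card (F ≃g F) : ℝ)
        ≤ ((⊤ : SimpleGraph (Fin n)).copyCount F : ℝ) * (Nat.card (F ≃g F) : ℝ)
          * (324 * L * q) ^ F.edgeSet.ncard := h1
      _ = _ := by ring
  exact le_of_mul_le_mul_right h2 ha


end Vale.Agent.Lib.P064
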